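import Mathlib

namespace Vale.Agent.Lib.P224

open Real

/-- logarithm of the volume of the unit `j`-sphere -/
noncomputable def aLog (j : ℕ) : ℝ :=
  Real.log 2 + (((j : ℝ) + 1) / 2) * Real.log π - Real.log (Real.Gamma (((j : ℝ) + 1) / 2))

theorem aLog_add_two (j : ℕ) :
    aLog (j + 2) = aLog j + Real.log (2 * π) - Real.log ((j : ℝ) + 1) := by
  unfold aLog
  have hpos : (0 : ℝ) < ((j : ℝ) + 1) / 2 := by positivity
  have hG : Real.Gamma ((((j + 2 : ℕ) : ℝ) + 1) / 2)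
      = (((j : ℝ) + 1) / 2) * Real.Gamma (((j : ℝ) + 1) / 2) := by
    have : (((j + 2 : ℕ) : ℝ) + 1) / 2 = ((j : ℝ) + 1) / 2 + 1 := by push_cast; ring
    rw [this, Real.Gamma_add_one hpos.ne']
  rw [hG, Real.log_mul hpos.ne' (Real.Gamma_pos_of_pos hpos).ne',
    Real.log_div (by positivity) (by norm_num),
    Real.log_mul (by norm_num) Real.pi_pos.ne']
  push_cast
  ring

/-- second difference of `aLog` (with sign): nonnegative by log-convexity of Gamma -/
noncomputable def lam (j : ℕ) : ℝ := 2 * aLog (j + 1) - aLog j - aLog (j + 2)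

theorem lam_nonneg (j : ℕ) : 0 ≤ lam j := by
  unfold lam aLog
  have hx : (0 : ℝ) < ((j : ℝ) + 1) / 2 := by positivity
  have hy : (0 : ℝ) < ((j : ℝ) + 3) / 2 := by positivity
  have hconv := Real.convexOn_log_Gamma.2 (Set.mem_Ioi.mpr hx) (Set.mem_Ioi.mpr hy)
    (by norm_num : (0 : ℝ) ≤ 1 / 2) (by norm_num : (0 : ℝ) ≤ 1 / 2)
    (by norm_num : (1 : ℝ) / 2 + 1 / 2 = 1)
  simp only [smul_eq_mul, Function.comp] at hconv
  have hmid : (1 : ℝ) / 2 * (((j : ℝ) + 1) / 2) + 1 / 2 * (((j : ℝ) + 3) / 2)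
      = ((j : ℝ) + 2) / 2 := by ring
  rw [hmid] at hconv
  have e1 : (((j + 1 : ℕ) : ℝ) + 1) / 2 = ((j : ℝ) + 2) / 2 := by push_cast; ring
  have e2 : (((j + 2 : ℕ) : ℝ) + 1) / 2 = ((j : ℝ) + 3) / 2 := by push_cast; ring
  rw [e1, e2]
  linarith

theorem lam_add (j : ℕ) :
    lam j + lam (j + 1) = Real.log ((j : ℝ) + 2) - Real.log ((j : ℝ) + 1) := by
  unfold lam
  have h1 := aLog_add_two j
  have h2 := aLog_add_two (j + 1)
  have e : (((j + 1 : ℕ) : ℝ) + 1) = (j : ℝ) + 2 := by push_cast; ring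
  rw [e] at h2
  have e3 : aLog (j + 1 + 1) = aLog (j + 2) := rfl
  have e4 : aLog (j + 1 + 2) = aLog (j + 3) := rfl
  rw [e3, e4]
  rw [e4] at h2
  linarith

theorem lam_le (j : ℕ) (hj : 1 ≤ j) :
    lam j ≤ Real.log ((j : ℝ) + 1) - Real.log (j : ℝ) := by
  obtain ⟨i, rfl⟩ : ∃ i, j = i + 1 := ⟨j - 1, by omega⟩
  have h := lam_add i
  have h0 := lam_nonneg i
  have e1 : (((i + 1 : ℕ) : ℝ) + 1) = (i : ℝ) + 2 := by push_cast; ring
  have e2 : ((i + 1 : ℕ) : ℝ) = (i : ℝ) + 1 := by push_cast; ring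
  rw [e1, e2]
  linarith

/-- logarithm of `j^(j/2) (j+2)^((j+2)/2) / (j+1)^(j+1)` -/
noncomputable def ellE (j : ℕ) : ℝ :=
  ((j : ℝ) / 2) * Real.log j + (((j : ℝ) + 2) / 2) * Real.log ((j : ℝ) + 2)
    - ((j : ℝ) + 1) * Real.log ((j : ℝ) + 1)

theorem ellE_nonneg (j : ℕ) (hj : 1 ≤ j) : 0 ≤ ellE j := by
  unfold ellE
  have hx : (0 : ℝ) < (j : ℝ) := by exact_mod_cast hj
  have h1 : 1 - ((j : ℝ) / ((j : ℝ) + 1))⁻¹ ≤ Real.log ((j : ℝ) / ((j : ℝ) + 1)) :=
    Real.one_sub_inv_le_log_of_pos (by positivity)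
  have h2 : 1 - (((j : ℝ) + 2) / ((j : ℝ) + 1))⁻¹ ≤ Real.log (((j : ℝ) + 2) / ((j : ℝ) + 1)) :=
    Real.one_sub_inv_le_log_of_pos (by positivity)
  rw [Real.log_div hx.ne' (by positivity)] at h1
  rw [Real.log_div (by positivity) (by positivity)] at h2
  have e1 : 1 - ((j : ℝ) / ((j : ℝ) + 1))⁻¹ = -(1 / (j : ℝ)) := by
    field_simp
    ring
  have e2 : 1 - (((j : ℝ) + 2) / ((j : ℝ) + 1))⁻¹ = 1 / ((j : ℝ) + 2) := by
    field_simp
    ring
  rw [e1] at h1
  rw [e2] at h2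
  have h3 : ((j : ℝ) / 2) * (-(1 / (j : ℝ))) ≤
      ((j : ℝ) / 2) * (Real.log (j : ℝ) - Real.log ((j : ℝ) + 1)) :=
    mul_le_mul_of_nonneg_left h1 (by positivity)
  have h4 : (((j : ℝ) + 2) / 2) * (1 / ((j : ℝ) + 2)) ≤
      (((j : ℝ) + 2) / 2) * (Real.log ((j : ℝ) + 2) - Real.log ((j : ℝ) + 1)) :=
    mul_le_mul_of_nonneg_left h2 (by positivity)
  have e3 : ((j : ℝ) / 2) * (-(1 / (j : ℝ))) = -(1 / 2) := by
    field_simp
  have e4 : (((j : ℝ) + 2) / 2) * (1 / ((j : ℝ) + 2)) = 1 / 2 := by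
    field_simp
  rw [e3] at h3
  rw [e4] at h4
  nlinarith [h3, h4]

theorem key_diff (x : ℝ) (hx : 1 ≤ x) :
    0 ≤ x * (Real.log x + 2 * Real.log (x + 3) - 2 * Real.log (x + 1) - Real.log (x + 4))
      + 4 * (2 * Real.log (x + 3) - Real.log (x + 2) - Real.log (x + 4)) := by
  have hx0 : 0 < x := by linarith
  have hA : 1 - (x * (x + 3) ^ 2 / ((x + 1) ^ 2 * (x + 4)))⁻¹
      ≤ Real.log (x * (x + 3) ^ 2 / ((x + 1) ^ 2 * (x + 4))) :=
    Real.one_sub_inv_le_log_of_pos (by positivity)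
  have hB : 1 - ((x + 3) ^ 2 / ((x + 2) * (x + 4)))⁻¹
      ≤ Real.log ((x + 3) ^ 2 / ((x + 2) * (x + 4))) :=
    Real.one_sub_inv_le_log_of_pos (by positivity)
  have hlA : Real.log (x * (x + 3) ^ 2 / ((x + 1) ^ 2 * (x + 4)))
      = Real.log x + 2 * Real.log (x + 3) - 2 * Real.log (x + 1) - Real.log (x + 4) := by
    rw [Real.log_div (by positivity) (by positivity), Real.log_mul hx0.ne' (by positivity),
      Real.log_mul (by positivity) (by positivity), Real.log_pow, Real.log_pow]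
    push_cast
    ring
  have hlB : Real.log ((x + 3) ^ 2 / ((x + 2) * (x + 4)))
      = 2 * Real.log (x + 3) - Real.log (x + 2) - Real.log (x + 4) := by
    rw [Real.log_div (by positivity) (by positivity), Real.log_mul (by positivity) (by positivity),
      Real.log_pow]
    push_cast
    ring
  rw [hlA] at hA
  rw [hlB] at hB
  have eA : x * (1 - (x * (x + 3) ^ 2 / ((x + 1) ^ 2 * (x + 4)))⁻¹) = -(4 / (x + 3) ^ 2) := by
    field_simp
    ring
  have eB : 4 * (1 - ((x + 3) ^ 2 / ((x + 2) * (x + 4)))⁻¹) = 4 / (x + 3) ^ 2 := by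
    field_simp
    ring
  have h1 := mul_le_mul_of_nonneg_left hA hx0.le
  have h2 := mul_le_mul_of_nonneg_left hB (by norm_num : (0 : ℝ) ≤ 4)
  rw [eA] at h1
  rw [eB] at h2
  linarith

/-- the defect `ellE j - lam j` -/
noncomputable def eps (j : ℕ) : ℝ := ellE j - lam j

theorem eps_sub (j : ℕ) (hj : 1 ≤ j) : eps (j + 2) ≤ eps j := by
  have hx : (1 : ℝ) ≤ (j : ℝ) := by exact_mod_cast hj
  have hk := key_diff (j : ℝ) hx
  have h1 := lam_add j
  have h2 := lam_add (j + 1)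
  have e : (((j + 1 : ℕ) : ℝ) + 2) = (j : ℝ) + 3 := by push_cast; ring
  have e' : (((j + 1 : ℕ) : ℝ) + 1) = (j : ℝ) + 2 := by push_cast; ring
  rw [e, e'] at h2
  have e3 : lam (j + 1 + 1) = lam (j + 2) := rfl
  rw [e3] at h2
  unfold eps ellE
  have c1 : ((j + 2 : ℕ) : ℝ) = (j : ℝ) + 2 := by push_cast; ring
  rw [c1]
  have c2 : (j : ℝ) + 2 + 2 = (j : ℝ) + 4 := by ring
  have c3 : (j : ℝ) + 2 + 1 = (j : ℝ) + 3 := by ring
  rw [c2, c3]
  nlinarith [hk, h1, h2]

theorem eps_ge (j : ℕ) (hj : 1 ≤ j) : -(1 / (j : ℝ)) ≤ eps j := by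
  have hx : (0 : ℝ) < (j : ℝ) := by exact_mod_cast hj
  have h1 := ellE_nonneg j hj
  have h2 := lam_le j hj
  have h3 : Real.log (((j : ℝ) + 1) / (j : ℝ)) ≤ ((j : ℝ) + 1) / (j : ℝ) - 1 :=
    Real.log_le_sub_one_of_pos (by positivity)
  rw [Real.log_div (by positivity) hx.ne'] at h3
  have e : ((j : ℝ) + 1) / (j : ℝ) - 1 = 1 / (j : ℝ) := by
    field_simp
    ring
  rw [e] at h3
  unfold eps
  linarith

theorem eps_chain (j : ℕ) (hj : 1 ≤ j) (n : ℕ) : eps (j + 2 * n) ≤ eps j := by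
  induction n with
  | zero => simp
  | succ n ih =>
    have h := eps_sub (j + 2 * n) (by omega)
    have e : j + 2 * (n + 1) = j + 2 * n + 2 := by ring
    rw [e]
    linarith

theorem eps_nonneg (j : ℕ) (hj : 1 ≤ j) : 0 ≤ eps j := by
  by_contra hneg
  push Not at hneg
  obtain ⟨n, hn⟩ := exists_nat_gt (1 / (-eps j))
  have hpos0 : (0 : ℝ) < -eps j := by linarith
  have hn0 : (0 : ℝ) < (n : ℝ) := lt_trans (one_div_pos.mpr hpos0) hn
  have h1 := eps_chain j hj n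
  have h2 := eps_ge (j + 2 * n) (by omega)
  have hc : ((j + 2 * n : ℕ) : ℝ) = (j : ℝ) + 2 * (n : ℝ) := by push_cast; ring
  rw [hc] at h2
  have hj0 : (0 : ℝ) ≤ (j : ℝ) := by positivity
  have h3 : 1 / ((j : ℝ) + 2 * (n : ℝ)) ≤ 1 / (n : ℝ) := by
    apply one_div_le_one_div_of_le hn0
    linarith
  have h4 : 1 / (n : ℝ) < -eps j := by
    have hpos : (0 : ℝ) < -eps j := by linarith
    rw [div_lt_iff₀ hn0]
    have := (div_lt_iff₀ hpos).mp hn
    linarith
  linarith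

/-- `uLog j = log (j^(j/2) |S^j|)` -/
noncomputable def uLog (j : ℕ) : ℝ := ((j : ℝ) / 2) * Real.log j + aLog j

theorem aLog_zero : aLog 0 = Real.log 2 := by
  unfold aLog
  have h : ((0 : ℕ) : ℝ) = 0 := by norm_num
  rw [h]
  have h2 : ((0 : ℝ) + 1) / 2 = 1 / 2 := by norm_num
  rw [h2, Real.Gamma_one_half_eq, Real.log_sqrt Real.pi_pos.le]
  ring

theorem aLog_one : aLog 1 = Real.log 2 + Real.log π := by
  unfold aLog
  have h : (((1 : ℕ) : ℝ) + 1) / 2 = 1 := by norm_num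
  rw [h, Real.Gamma_one, Real.log_one]
  ring

theorem aLog_two : aLog 2 = 2 * Real.log 2 + Real.log π := by
  have h := aLog_add_two 0
  rw [aLog_zero] at h
  have e : ((0 : ℕ) : ℝ) + 1 = 1 := by norm_num
  rw [e, Real.log_one, Real.log_mul (by norm_num) Real.pi_pos.ne'] at h
  have e2 : aLog (0 + 2) = aLog 2 := rfl
  rw [e2] at h
  linarith

theorem uLog_convex (j : ℕ) : 2 * uLog (j + 1) ≤ uLog j + uLog (j + 2) := by
  rcases Nat.eq_zero_or_pos j with h0 | hpos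
  · subst h0
    unfold uLog
    have e0 : aLog (0 + 1) = aLog 1 := rfl
    have e2 : aLog (0 + 2) = aLog 2 := rfl
    rw [e0, e2, aLog_zero, aLog_one, aLog_two]
    have c0 : ((0 : ℕ) : ℝ) = 0 := by norm_num
    have c1 : ((0 + 1 : ℕ) : ℝ) = 1 := by norm_num
    have c2 : ((0 + 2 : ℕ) : ℝ) = 2 := by norm_num
    rw [c0, c1, c2, Real.log_one]
    have hpi : Real.log π < Real.log 4 := Real.log_lt_log Real.pi_pos Real.pi_lt_four
    have h4 : Real.log 4 = 2 * Real.log 2 := by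
      have : (4 : ℝ) = 2 ^ 2 := by norm_num
      rw [this, Real.log_pow]
      push_cast
      ring
    nlinarith [hpi, h4]
  · have h := eps_nonneg j hpos
    unfold eps ellE lam at h
    unfold uLog
    have c1 : ((j + 1 : ℕ) : ℝ) = (j : ℝ) + 1 := by push_cast; ring
    have c2 : ((j + 2 : ℕ) : ℝ) = (j : ℝ) + 2 := by push_cast; ring
    rw [c1, c2]
    nlinarith [h]

/-- increments of `uLog` -/
noncomputable def dLog (j : ℕ) : ℝ := uLog (j + 1) - uLog j

theorem dLog_mono : Monotone dLog := by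
  apply monotone_nat_of_le_succ
  intro j
  unfold dLog
  have h := uLog_convex j
  have e : uLog (j + 1 + 1) = uLog (j + 2) := rfl
  rw [e]
  linarith

theorem dLog_zero_lt_one : dLog 0 < dLog 1 := by
  unfold dLog uLog
  have e0 : aLog (0 + 1) = aLog 1 := rfl
  have e2 : aLog (1 + 1) = aLog 2 := rfl
  rw [e0, e2, aLog_zero, aLog_one, aLog_two]
  have c0 : ((0 : ℕ) : ℝ) = 0 := by norm_num
  have c1 : ((0 + 1 : ℕ) : ℝ) = 1 := by norm_num
  have c2 : ((1 + 1 : ℕ) : ℝ) = 2 := by norm_num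
  rw [c0, c1, c2, Real.log_one]
  have hpi : Real.log π < Real.log 4 := Real.log_lt_log Real.pi_pos Real.pi_lt_four
  have h4 : Real.log 4 = 2 * Real.log 2 := by
    have : (4 : ℝ) = 2 ^ 2 := by norm_num
    rw [this, Real.log_pow]
    push_cast
    ring
  nlinarith [hpi, h4]

/-- `tLog m k = uLog k + uLog (m - k)` -/
noncomputable def tLog (m k : ℕ) : ℝ := uLog k + uLog (m - k)

theorem tLog_step (m k : ℕ) (h : 2 * k + 1 ≤ m) : tLog m (k + 1) ≤ tLog m k := by
  unfold tLog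
  have hm : dLog k ≤ dLog (m - k - 1) := dLog_mono (by omega)
  unfold dLog at hm
  have e1 : m - k - 1 + 1 = m - k := by omega
  have e2 : m - (k + 1) = m - k - 1 := by omega
  rw [e1] at hm
  rw [e2]
  linarith

theorem tLog_chain (m : ℕ) (d k : ℕ) (h : k + d ≤ m / 2) : tLog m (k + d) ≤ tLog m k := by
  induction d with
  | zero => simp
  | succ d ih =>
    have h1 : tLog m (k + d) ≤ tLog m k := ih (by omega)
    have h2 : tLog m (k + d + 1) ≤ tLog m (k + d) := tLog_step m (k + d) (by omega)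
    have e : k + (d + 1) = k + d + 1 := by ring
    rw [e]
    linarith

theorem tLog_symm (m k : ℕ) (h : k ≤ m) : tLog m (m - k) = tLog m k := by
  unfold tLog
  have e : m - (m - k) = k := by omega
  rw [e]
  ring

theorem tLog_min (m k : ℕ) (hk : k ≤ m) : tLog m (m / 2) ≤ tLog m k := by
  rcases Nat.lt_or_ge (m / 2) k with h | h
  · -- k > m/2, use symmetry
    have h1 : m - k ≤ m / 2 := by omega
    have h2 := tLog_chain m (m / 2 - (m - k)) (m - k) (by omega)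
    have e : m - k + (m / 2 - (m - k)) = m / 2 := by omega
    rw [e] at h2
    rw [tLog_symm m k hk] at h2
    exact h2
  · have h2 := tLog_chain m (m / 2 - k) k (by omega)
    have e : k + (m / 2 - k) = m / 2 := by omega
    rw [e] at h2
    exact h2

theorem tLog_lt_zero (m k : ℕ) (hk1 : 1 ≤ k) (hk : k < m) : tLog m k < tLog m 0 := by
  have hm : 2 ≤ m := by omega
  -- reduce to k' ≤ m/2
  have key : ∀ k', 1 ≤ k' → k' ≤ m / 2 → tLog m k' < tLog m 0 := by
    intro k' h1 h2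
    have hc := tLog_chain m (k' - 1) 1 (by omega)
    have e : 1 + (k' - 1) = k' := by omega
    rw [e] at hc
    have h01 : tLog m 1 < tLog m 0 := by
      unfold tLog
      have hd : dLog 0 < dLog (m - 1) :=
        lt_of_lt_of_le dLog_zero_lt_one (dLog_mono (by omega))
      unfold dLog at hd
      have e1 : m - 1 + 1 = m := by omega
      have e2 : (0 : ℕ) + 1 = 1 := rfl
      have e3 : m - 0 = m := by omega
      rw [e1] at hd
      rw [e3]
      linarith
    linarith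
  rcases Nat.lt_or_ge (m / 2) k with h | h
  · have := key (m - k) (by omega) (by omega)
    rw [tLog_symm m k hk.le] at this
    exact this
  · exact key k hk1 h

end Vale.Agent.Lib.P224
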