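import Mathlib

namespace Vale.Agent.Lib.P224

/-- The volume of the unit sphere `S^k` in `ℝ^(k+1)`, namely `2 π^((k+1)/2) / Γ((k+1)/2)`. -/
noncomputable def sphereVol (k : ℕ) : ℝ :=
  2 * Real.pi ^ (((k : ℝ) + 1) / 2) / Real.Gamma (((k : ℝ) + 1) / 2)

/-- The volume of the minimal Clifford product `S^k(√(k/m)) × S^(m-k)(√((m-k)/m))` in `S^(m+1)`,
namely `(k/m)^(k/2) ((m-k)/m)^((m-k)/2) |S^k| |S^(m-k)|`. -/
noncomputable def cliffordVol (m k : ℕ) : ℝ :=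
  ((k : ℝ) / (m : ℝ)) ^ ((k : ℝ) / 2) * (((m - k : ℕ) : ℝ) / (m : ℝ)) ^ (((m - k : ℕ) : ℝ) / 2)
    * sphereVol k * sphereVol (m - k)

end Vale.Agent.Lib.P224
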