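import Vale.Agent.Lib.P224.Defs
import Vale.Agent.Lib.P224.Clifford

namespace Vale.Agent.Lib.P224

open Real

theorem sphereVol_eq_exp (j : ℕ) : sphereVol j = Real.exp (aLog j) := by
  unfold sphereVol aLog
  have hx : (0 : ℝ) < ((j : ℝ) + 1) / 2 := by positivity
  have hG : 0 < Real.Gamma (((j : ℝ) + 1) / 2) := Real.Gamma_pos_of_pos hx
  rw [Real.exp_sub, Real.exp_add, Real.exp_log (by norm_num : (0 : ℝ) < 2), Real.exp_log hG,
    Real.rpow_def_of_pos Real.pi_pos]
  congr 2
  ring_nf

theorem cliffordVol_eq_exp (m k : ℕ) (hk1 : 1 ≤ k) (hk : k < m) :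
    cliffordVol m k = Real.exp (tLog m k - ((m : ℝ) / 2) * Real.log m) := by
  unfold cliffordVol tLog uLog
  have hkpos : (0 : ℝ) < (k : ℝ) := by exact_mod_cast hk1
  have hmpos : (0 : ℝ) < (m : ℝ) := by
    have : 0 < m := by omega
    exact_mod_cast this
  have hl1 : 1 ≤ m - k := by omega
  have hlpos : (0 : ℝ) < ((m - k : ℕ) : ℝ) := by exact_mod_cast hl1
  have hsum : ((m - k : ℕ) : ℝ) = (m : ℝ) - (k : ℝ) := by
    rw [Nat.cast_sub hk.le]
  rw [sphereVol_eq_exp, sphereVol_eq_exp,
    Real.rpow_def_of_pos (div_pos hkpos hmpos), Real.rpow_def_of_pos (div_pos hlpos hmpos),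
    Real.log_div hkpos.ne' hmpos.ne', Real.log_div hlpos.ne' hmpos.ne',
    ← Real.exp_add, ← Real.exp_add, ← Real.exp_add]
  congr 1
  rw [hsum]
  ring

theorem two_sphereVol_eq_exp (m : ℕ) :
    2 * sphereVol m = Real.exp (tLog m 0 - ((m : ℝ) / 2) * Real.log m) := by
  unfold tLog uLog
  rw [sphereVol_eq_exp, aLog_zero]
  have c0 : ((0 : ℕ) : ℝ) = 0 := by norm_num
  have e : m - 0 = m := by omega
  rw [c0, e]
  have : (0 : ℝ) / 2 * Real.log 0 + Real.log 2 + ((m : ℝ) / 2 * Real.log m + aLog m)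
      - (m : ℝ) / 2 * Real.log m = Real.log 2 + aLog m := by ring
  rw [this, Real.exp_add, Real.exp_log (by norm_num : (0 : ℝ) < 2)]

/-- For `1 ≤ k < m`: the balanced Clifford product has the least volume among the minimal
Clifford products of dimension `m`, and every one of them has volume less than `2 |S^m|`. -/
theorem clifford_main (m k : ℕ) (hk1 : 1 ≤ k) (hk : k < m) :
    cliffordVol m (m / 2) ≤ cliffordVol m k ∧ cliffordVol m k < 2 * sphereVol m := by
  have hm : 2 ≤ m := by omega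
  constructor
  · rw [cliffordVol_eq_exp m (m / 2) (by omega) (by omega), cliffordVol_eq_exp m k hk1 hk]
    apply Real.exp_le_exp.mpr
    have := tLog_min m k hk.le
    linarith
  · rw [cliffordVol_eq_exp m k hk1 hk, two_sphereVol_eq_exp]
    apply Real.exp_lt_exp.mpr
    have := tLog_lt_zero m k hk1 hk
    linarith

end Vale.Agent.Lib.P224
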